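import Vale.Agent.P254.L.Alg
import Vale.Agent.P254.L.Jets

/-!
P254, block (S1) (helper526): second order jets of polynomial functions of matrices, in a frame
where the base point is diagonal, in terms of divided differences; Hermite interpolation.
-/

namespace Vale.Agent.P254.S526

open Matrix Set Filter Topology Asymptotics Polynomial
open Vale.Agent.P254.L

variable {n : ℕ}

/-- first divided difference of a polynomial -/
noncomputable def pd1 (q : ℝ[X]) (x y : ℝ) : ℝ :=
  dd1 (fun t => q.eval t) (fun t => q.derivative.eval t) x y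

/-- second divided difference of a polynomial -/
noncomputable def pd2 (q : ℝ[X]) (x y z : ℝ) : ℝ :=
  dd2 (fun t => q.eval t) (fun t => q.derivative.eval t)
    (fun t => q.derivative.derivative.eval t) x y z

theorem pd1_self (q : ℝ[X]) (x : ℝ) : pd1 q x x = q.derivative.eval x := by
  simp [pd1, dd1]

theorem pd1_ne (q : ℝ[X]) {x y : ℝ} (h : x ≠ y) :
    pd1 q x y = (q.eval x - q.eval y) / (x - y) := by
  simp [pd1, dd1, h]

theorem pd1_symm (q : ℝ[X]) (x y : ℝ) : pd1 q x y = pd1 q y x := by
  by_cases h : x = y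
  · subst h; rfl
  · rw [pd1_ne q h, pd1_ne q (Ne.symm h)]
    have h1 : x - y ≠ 0 := sub_ne_zero.2 h
    have h2 : y - x ≠ 0 := sub_ne_zero.2 (Ne.symm h)
    field_simp
    ring

theorem pd1_mul_sub (q : ℝ[X]) (x y : ℝ) : pd1 q x y * (x - y) = q.eval x - q.eval y := by
  by_cases h : x = y
  · subst h; simp
  · rw [pd1_ne q h]
    have h1 : x - y ≠ 0 := sub_ne_zero.2 h
    field_simp

/-- `(X q)[x,y] = y q[x,y] + q(x)` -/
theorem pd1_mul_X (q : ℝ[X]) (x y : ℝ) : pd1 (q * X) x y = y * pd1 q x y + q.eval x := by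
  by_cases h : x = y
  · subst h
    rw [pd1_self, pd1_self]
    simp [derivative_mul]
    ring
  · rw [pd1_ne _ h, pd1_ne _ h]
    have h1 : x - y ≠ 0 := sub_ne_zero.2 h
    simp only [eval_mul, eval_X]
    field_simp
    ring

/-- `(X q)[x,y] = x q[x,y] + q(y)` -/
theorem pd1_mul_X' (q : ℝ[X]) (x y : ℝ) : pd1 (q * X) x y = x * pd1 q x y + q.eval y := by
  rw [pd1_mul_X]
  have := pd1_mul_sub q x y
  linarith

theorem pd2_self (q : ℝ[X]) (x : ℝ) : pd2 q x x x = q.derivative.derivative.eval x / 2 := by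
  simp [pd2, dd2]

theorem pd2_eq_ne (q : ℝ[X]) {x y : ℝ} (h : x ≠ y) :
    pd2 q x y x = (q.derivative.eval x - pd1 q x y) / (x - y) := by
  simp [pd2, dd2, h, pd1]

theorem pd2_ne (q : ℝ[X]) {x z : ℝ} (y : ℝ) (h : x ≠ z) :
    pd2 q x y z = (pd1 q x y - pd1 q y z) / (x - z) := by
  simp [pd2, dd2, h, pd1]

/-- `(X q)[x,z,y] = y q[x,z,y] + q[x,z]` -/
theorem pd2_mul_X (q : ℝ[X]) (x z y : ℝ) :
    pd2 (q * X) x z y = y * pd2 q x z y + pd1 q x z := by
  by_cases h : x = y
  · subst h
    by_cases h2 : x = z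
    · subst h2
      rw [pd2_self, pd2_self, pd1_self]
      simp [derivative_mul]
      ring
    · rw [pd2_eq_ne _ h2, pd2_eq_ne _ h2, pd1_mul_X']
      have h1 : x - z ≠ 0 := sub_ne_zero.2 h2
      have h3 := pd1_mul_sub q x z
      have h4 : (q * X).derivative.eval x = x * q.derivative.eval x + q.eval x := by
        simp [derivative_mul]; ring
      rw [h4]
      field_simp
      linarith
  · rw [pd2_ne _ _ h, pd2_ne _ _ h, pd1_mul_X' q x z, pd1_mul_X q z y]
    have h1 : x - y ≠ 0 := sub_ne_zero.2 h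
    field_simp
    ring

/-- `(X q)[x,z,y] = x q[x,z,y] + q[z,y]` -/
theorem pd2_mul_X' (q : ℝ[X]) (x z y : ℝ) :
    pd2 (q * X) x z y = x * pd2 q x z y + pd1 q z y := by
  rw [pd2_mul_X]
  by_cases h : x = y
  · subst h; rw [pd1_symm q x z]
  · rw [pd2_ne _ _ h]
    have h1 : x - y ≠ 0 := sub_ne_zero.2 h
    field_simp
    ring

theorem pd1_add (p q : ℝ[X]) (x y : ℝ) : pd1 (p + q) x y = pd1 p x y + pd1 q x y := by
  by_cases h : x = y
  · subst h; simp [pd1_self]
  · rw [pd1_ne _ h, pd1_ne _ h, pd1_ne _ h]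
    simp only [eval_add]; ring

theorem pd2_add (p q : ℝ[X]) (x y z : ℝ) : pd2 (p + q) x y z = pd2 p x y z + pd2 q x y z := by
  by_cases h : x = z
  · subst h
    by_cases h2 : x = y
    · subst h2; simp [pd2_self]; ring
    · rw [pd2_eq_ne _ h2, pd2_eq_ne _ h2, pd2_eq_ne _ h2, pd1_add]
      simp only [derivative_add, eval_add]; ring
  · rw [pd2_ne _ _ h, pd2_ne _ _ h, pd2_ne _ _ h, pd1_add, pd1_add]; ring

theorem pd1_C (a x y : ℝ) : pd1 (C a) x y = 0 := by
  by_cases h : x = y
  · subst h; simp [pd1_self]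
  · rw [pd1_ne _ h]; simp

theorem pd2_C (a x y z : ℝ) : pd2 (C a) x y z = 0 := by
  by_cases h : x = z
  · subst h
    by_cases h2 : x = y
    · subst h2; simp [pd2_self]
    · rw [pd2_eq_ne _ h2, pd1_C]; simp
  · rw [pd2_ne _ _ h, pd1_C, pd1_C]; simp

/-- `q[x,y,x] + q[y,x,y] = q'[x,y]` -/
theorem pd2_add_swap (q : ℝ[X]) (x y : ℝ) :
    pd2 q x y x + pd2 q y x y = pd1 q.derivative x y := by
  by_cases h : x = y
  · subst h; rw [pd2_self, pd1_self]; ring
  · rw [pd2_eq_ne _ h, pd2_eq_ne _ (Ne.symm h), pd1_ne q.derivative h, pd1_symm q y x]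
    have h1 : x - y ≠ 0 := sub_ne_zero.2 h
    have h2 : (y - x) = -(x - y) := by ring
    rw [h2, div_neg]
    field_simp
    ring

section jets

variable {l : Filter ℝ} (hl : l ≤ 𝓝 0) {d : Vec n} {M : ℝ → Mat n} {Z Y : Mat n}

include hl in
/-- (i): the second order jet of `q (M t)`, `M t = diag d + t Z + t² Y + o(t²)` -/
theorem poly_jet2 (q : ℝ[X])
    (hM : ∀ i j, J2 l (fun t => M t i j) (Matrix.diagonal d i j) (Z i j) (Y i j)) (i j : Fin n) :
    J2 l (fun t => (aeval (M t) q) i j) (Matrix.diagonal (fun i => q.eval (d i)) i j)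
      (pd1 q (d i) (d j) * Z i j)
      (pd1 q (d i) (d j) * Y i j + ∑ k, pd2 q (d i) (d k) (d j) * Z i k * Z k j) := by
  revert i j
  induction q using Polynomial.induction_on with
  | C a =>
    intro i j
    have e : (fun t => (aeval (M t) (C a)) i j) = fun _ => Matrix.diagonal (fun _ => a) i j := by
      funext t
      rw [aeval_C, Algebra.algebraMap_eq_smul_one, Matrix.smul_apply, Matrix.one_apply,
        Matrix.diagonal_apply]
      split_ifs <;> simp
    rw [e]
    refine (J2.const _).congr_coef ?_ ?_ ?_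
    · simp
    · rw [pd1_C]; ring
    · rw [pd1_C]; simp [pd2_C]
  | add p q hp hq =>
    intro i j
    have e : (fun t => (aeval (M t) (p + q)) i j)
        = fun t => (aeval (M t) p) i j + (aeval (M t) q) i j := by
      funext t; rw [map_add, Matrix.add_apply]
    rw [e]
    refine ((hp i j).add (hq i j)).congr_coef ?_ ?_ ?_
    · simp only [Matrix.diagonal_apply, eval_add]; split_ifs <;> simp
    · rw [pd1_add]; ring
    · simp only [pd1_add, pd2_add, add_mul, Finset.sum_add_distrib]; ring
  | monomial m a h =>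
    intro i j
    set p : ℝ[X] := C a * X ^ m with hp
    have e0 : (C a * X ^ (m + 1) : ℝ[X]) = p * X := by rw [hp, pow_succ, mul_assoc]
    rw [e0]
    have e : (fun t => (aeval (M t) (p * X)) i j)
        = fun t => ∑ k, (aeval (M t) p) i k * M t k j := by
      funext t; rw [map_mul, aeval_X, Matrix.mul_apply]
    rw [e]
    have hs := J2.sum Finset.univ (fun k _ => (h i k).mul hl (hM k j))
    refine hs.congr_coef ?_ ?_ ?_
    · rw [← Matrix.mul_apply, Matrix.diagonal_mul_diagonal]
      simp [Matrix.diagonal_apply]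
    · rw [Finset.sum_add_distrib]
      have e1 : ∑ k, Matrix.diagonal (fun i => p.eval (d i)) i k * Z k j
          = p.eval (d i) * Z i j := by
        rw [← Matrix.mul_apply, Matrix.diagonal_mul]
      have e2 : ∑ k, pd1 p (d i) (d k) * Z i k * Matrix.diagonal d k j
          = pd1 p (d i) (d j) * Z i j * d j := by
        have := Matrix.mul_diagonal d (Matrix.of fun i k => pd1 p (d i) (d k) * Z i k) i j
        rw [Matrix.mul_apply] at this
        simpa using this
      rw [e1, e2, pd1_mul_X]; ring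
    · simp only [Finset.sum_add_distrib]
      have e1 : ∑ k, Matrix.diagonal (fun i => p.eval (d i)) i k * Y k j
          = p.eval (d i) * Y i j := by
        rw [← Matrix.mul_apply, Matrix.diagonal_mul]
      have e2 : ∑ k, (pd1 p (d i) (d k) * Y i k
            + ∑ k', pd2 p (d i) (d k') (d k) * Z i k' * Z k' k) * Matrix.diagonal d k j
          = (pd1 p (d i) (d j) * Y i j
            + ∑ k', pd2 p (d i) (d k') (d j) * Z i k' * Z k' j) * d j := by
        have := Matrix.mul_diagonal d (Matrix.of fun i k => (pd1 p (d i) (d k) * Y i k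
            + ∑ k', pd2 p (d i) (d k') (d k) * Z i k' * Z k' k)) i j
        rw [Matrix.mul_apply] at this
        simpa using this
      rw [e1, e2, pd1_mul_X]
      have e3 : ∑ k, pd2 (p * X) (d i) (d k) (d j) * Z i k * Z k j
          = d j * (∑ k, pd2 p (d i) (d k) (d j) * Z i k * Z k j)
            + ∑ k, pd1 p (d i) (d k) * Z i k * Z k j := by
        rw [Finset.mul_sum, ← Finset.sum_add_distrib]
        refine Finset.sum_congr rfl fun k _ => ?_
        rw [pd2_mul_X]; ring
      rw [e3]; ring

include hl in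
/-- (i), first order version -/
theorem poly_jet1 (q : ℝ[X])
    (hM : ∀ i j, J1 l (fun t => M t i j) (Matrix.diagonal d i j) (Z i j)) (i j : Fin n) :
    J1 l (fun t => (aeval (M t) q) i j) (Matrix.diagonal (fun i => q.eval (d i)) i j)
      (pd1 q (d i) (d j) * Z i j) := by
  revert i j
  induction q using Polynomial.induction_on with
  | C a =>
    intro i j
    have e : (fun t => (aeval (M t) (C a)) i j) = fun _ => Matrix.diagonal (fun _ => a) i j := by
      funext t
      rw [aeval_C, Algebra.algebraMap_eq_smul_one, Matrix.smul_apply, Matrix.one_apply,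
        Matrix.diagonal_apply]
      split_ifs <;> simp
    rw [e]
    refine (J1.const _).congr_coef ?_ ?_
    · simp
    · rw [pd1_C]; ring
  | add p q hp hq =>
    intro i j
    have e : (fun t => (aeval (M t) (p + q)) i j)
        = fun t => (aeval (M t) p) i j + (aeval (M t) q) i j := by
      funext t; rw [map_add, Matrix.add_apply]
    rw [e]
    refine ((hp i j).add (hq i j)).congr_coef ?_ ?_
    · simp only [Matrix.diagonal_apply, eval_add]; split_ifs <;> simp
    · rw [pd1_add]; ring
  | monomial m a h =>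
    intro i j
    set p : ℝ[X] := C a * X ^ m with hp
    have e0 : (C a * X ^ (m + 1) : ℝ[X]) = p * X := by rw [hp, pow_succ, mul_assoc]
    rw [e0]
    have e : (fun t => (aeval (M t) (p * X)) i j)
        = fun t => ∑ k, (aeval (M t) p) i k * M t k j := by
      funext t; rw [map_mul, aeval_X, Matrix.mul_apply]
    rw [e]
    have hs := J1.sum Finset.univ (fun k _ => (h i k).mul hl (hM k j))
    refine hs.congr_coef ?_ ?_
    · rw [← Matrix.mul_apply, Matrix.diagonal_mul_diagonal]
      simp [Matrix.diagonal_apply]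
    · rw [Finset.sum_add_distrib]
      have e1 : ∑ k, Matrix.diagonal (fun i => p.eval (d i)) i k * Z k j
          = p.eval (d i) * Z i j := by
        rw [← Matrix.mul_apply, Matrix.diagonal_mul]
      have e2 : ∑ k, pd1 p (d i) (d k) * Z i k * Matrix.diagonal d k j
          = pd1 p (d i) (d j) * Z i j * d j := by
        have := Matrix.mul_diagonal d (Matrix.of fun i k => pd1 p (d i) (d k) * Z i k) i j
        rw [Matrix.mul_apply] at this
        simpa using this
      rw [e1, e2, pd1_mul_X]; ring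

include hl in
/-- (ii) trace version, second order -/
theorem poly_trace_jet2 (q : ℝ[X])
    (hM : ∀ i j, J2 l (fun t => M t i j) (Matrix.diagonal d i j) (Z i j) (Y i j)) :
    J2 l (fun t => (aeval (M t) q).trace) (∑ i, q.eval (d i))
      (∑ i, q.derivative.eval (d i) * Z i i)
      (∑ i, q.derivative.eval (d i) * Y i i
        + 1 / 2 * ∑ i, ∑ j, pd1 q.derivative (d i) (d j) * Z i j * Z j i) := by
  have h := J2.sum Finset.univ (fun i _ => poly_jet2 hl q hM i i)
  refine (h.congr (Eventually.of_forall fun t => ?_) ?_ ?_ ?_)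
  · simp [Matrix.trace]
  · simp
  · refine Finset.sum_congr rfl fun i _ => ?_
    rw [pd1_self]
  · rw [Finset.sum_add_distrib]
    congr 1
    · refine Finset.sum_congr rfl fun i _ => ?_
      rw [pd1_self]
    · have e : ∑ i, ∑ j, pd1 q.derivative (d i) (d j) * Z i j * Z j i
          = ∑ i, ∑ j, pd2 q (d i) (d j) (d i) * Z i j * Z j i
            + ∑ i, ∑ j, pd2 q (d j) (d i) (d j) * Z i j * Z j i := by
        rw [← Finset.sum_add_distrib]
        refine Finset.sum_congr rfl fun i _ => ?_
        rw [← Finset.sum_add_distrib]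
        refine Finset.sum_congr rfl fun j _ => ?_
        rw [← pd2_add_swap]; ring
      have e2 : ∑ i, ∑ j, pd2 q (d j) (d i) (d j) * Z i j * Z j i
          = ∑ i, ∑ j, pd2 q (d i) (d j) (d i) * Z i j * Z j i := by
        rw [Finset.sum_comm]
        refine Finset.sum_congr rfl fun i _ => ?_
        refine Finset.sum_congr rfl fun j _ => ?_
        ring
      rw [e, e2]; ring

include hl in
/-- (ii) trace version, first order -/
theorem poly_trace_jet1 (q : ℝ[X])
    (hM : ∀ i j, J1 l (fun t => M t i j) (Matrix.diagonal d i j) (Z i j)) :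
    J1 l (fun t => (aeval (M t) q).trace) (∑ i, q.eval (d i))
      (∑ i, q.derivative.eval (d i) * Z i i) := by
  have h := J1.sum Finset.univ (fun i _ => poly_jet1 hl q hM i i)
  refine (h.congr (Eventually.of_forall fun t => ?_) ?_ ?_)
  · simp [Matrix.trace]
  · simp
  · refine Finset.sum_congr rfl fun i _ => ?_
    rw [pd1_self]

/-! ### the products `A q(BA)` -/

/-- (v): second order jet of `A q(BA)` in a frame where `A = diag a`, `B = diag b'`; `B` fixed -/
theorem SQ_jet2 (hl : l ≤ 𝓝 0) (q : ℝ[X]) {a b' : Vec n} {At : ℝ → Mat n} {X₁ X₂ : Mat n}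
    (hA : ∀ i j, J2 l (fun t => At t i j) (Matrix.diagonal a i j) (X₁ i j) (X₂ i j))
    (i j : Fin n) :
    J2 l (fun t => (At t * aeval (Matrix.diagonal b' * At t) q) i j)
      (Matrix.diagonal (fun i => a i * q.eval (a i * b' i)) i j)
      (pd1 (q * X) (a i * b' i) (a j * b' j) * X₁ i j)
      (pd1 (q * X) (a i * b' i) (a j * b' j) * X₂ i j
        + ∑ k, b' k * pd2 (q * X) (a i * b' i) (a k * b' k) (a j * b' j) * X₁ i k * X₁ k j) := by
  have hM : ∀ i j, J2 l (fun t => (Matrix.diagonal b' * At t) i j)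
      (Matrix.diagonal (fun i => a i * b' i) i j)
      ((Matrix.of fun i j => b' i * X₁ i j) i j) ((Matrix.of fun i j => b' i * X₂ i j) i j) := by
    intro i j
    refine ((hA i j).const_mul (b' i)).congr (Eventually.of_forall fun t => ?_) ?_ ?_ ?_
    · exact (Matrix.diagonal_mul b' (At t) i j).symm
    · simp only [Matrix.diagonal_apply]; split_ifs
      · ring
      · simp
    · simp
    · simp
  have hq := poly_jet2 hl q hM
  have hs := J2.sum Finset.univ (fun k _ => (hA i k).mul hl (hq k j))
  refine hs.congr (Eventually.of_forall fun t => ?_) ?_ ?_ ?_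
  · simp only [Matrix.mul_apply]
  · rw [← Matrix.mul_apply, Matrix.diagonal_mul_diagonal]
  · rw [Finset.sum_add_distrib]
    have e1 : ∑ k, Matrix.diagonal a i k *
          (pd1 q (a k * b' k) (a j * b' j) * (Matrix.of fun i j => b' i * X₁ i j) k j)
        = a i * (pd1 q (a i * b' i) (a j * b' j) * (b' i * X₁ i j)) := by
      have := Matrix.diagonal_mul a (Matrix.of fun k j =>
        pd1 q (a k * b' k) (a j * b' j) * (b' k * X₁ k j)) i j
      rw [Matrix.mul_apply] at this
      simpa using this
    have e2 : ∑ k, X₁ i k * Matrix.diagonal (fun i => q.eval (a i * b' i)) k j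
        = X₁ i j * q.eval (a j * b' j) := by
      rw [← Matrix.mul_apply, Matrix.mul_diagonal]
    rw [e1, e2, pd1_mul_X']; ring
  · simp only [Finset.sum_add_distrib]
    have e1 : ∑ k, Matrix.diagonal a i k *
          (pd1 q (a k * b' k) (a j * b' j) * (Matrix.of fun i j => b' i * X₂ i j) k j
            + ∑ k', pd2 q (a k * b' k) (a k' * b' k') (a j * b' j)
              * (Matrix.of fun i j => b' i * X₁ i j) k k'
              * (Matrix.of fun i j => b' i * X₁ i j) k' j)
        = a i * (pd1 q (a i * b' i) (a j * b' j) * (b' i * X₂ i j)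
            + ∑ k', pd2 q (a i * b' i) (a k' * b' k') (a j * b' j)
              * (b' i * X₁ i k') * (b' k' * X₁ k' j)) := by
      have := Matrix.diagonal_mul a (Matrix.of fun k j =>
        (pd1 q (a k * b' k) (a j * b' j) * (b' k * X₂ k j)
            + ∑ k', pd2 q (a k * b' k) (a k' * b' k') (a j * b' j)
              * (b' k * X₁ k k') * (b' k' * X₁ k' j))) i j
      rw [Matrix.mul_apply] at this
      simpa using this
    have e2 : ∑ k, X₂ i k * Matrix.diagonal (fun i => q.eval (a i * b' i)) k j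
        = X₂ i j * q.eval (a j * b' j) := by
      rw [← Matrix.mul_apply, Matrix.mul_diagonal]
    have e3 : ∑ k, b' k * pd2 (q * X) (a i * b' i) (a k * b' k) (a j * b' j) * X₁ i k * X₁ k j
        = a i * ∑ k', pd2 q (a i * b' i) (a k' * b' k') (a j * b' j)
              * (b' i * X₁ i k') * (b' k' * X₁ k' j)
          + ∑ k, X₁ i k * (pd1 q (a k * b' k) (a j * b' j)
              * (Matrix.of fun i j => b' i * X₁ i j) k j) := by
      rw [Finset.mul_sum, ← Finset.sum_add_distrib]
      refine Finset.sum_congr rfl fun k _ => ?_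
      rw [pd2_mul_X', Matrix.of_apply]; ring
    rw [e1, e2, e3, pd1_mul_X']; ring

/-- (v), first order version with `B = diag b' + t Z + o(t)` -/
theorem SQ_jet1 (hl : l ≤ 𝓝 0) (q : ℝ[X]) {a b' : Vec n} {At Bt : ℝ → Mat n} {X₁ Z₁ : Mat n}
    (hA : ∀ i j, J1 l (fun t => At t i j) (Matrix.diagonal a i j) (X₁ i j))
    (hB : ∀ i j, J1 l (fun t => Bt t i j) (Matrix.diagonal b' i j) (Z₁ i j))
    (i j : Fin n) :
    J1 l (fun t => (At t * aeval (Bt t * At t) q) i j)
      (Matrix.diagonal (fun i => a i * q.eval (a i * b' i)) i j)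
      (pd1 (q * X) (a i * b' i) (a j * b' j) * X₁ i j
        + a i * a j * pd1 q (a i * b' i) (a j * b' j) * Z₁ i j) := by
  have hM : ∀ i j, J1 l (fun t => (Bt t * At t) i j)
      (Matrix.diagonal (fun i => a i * b' i) i j)
      ((Matrix.of fun i j => b' i * X₁ i j + Z₁ i j * a j) i j) := by
    intro i j
    have hs := J1.sum Finset.univ (fun k _ => (hB i k).mul hl (hA k j))
    refine hs.congr (Eventually.of_forall fun t => ?_) ?_ ?_
    · simp only [Matrix.mul_apply]
    · rw [← Matrix.mul_apply, Matrix.diagonal_mul_diagonal]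
      simp only [mul_comm]
    · rw [Finset.sum_add_distrib, ← Matrix.mul_apply, ← Matrix.mul_apply, Matrix.diagonal_mul,
        Matrix.mul_diagonal, Matrix.of_apply]
  have hq := poly_jet1 hl q hM
  have hs := J1.sum Finset.univ (fun k _ => (hA i k).mul hl (hq k j))
  refine hs.congr (Eventually.of_forall fun t => ?_) ?_ ?_
  · simp only [Matrix.mul_apply]
  · rw [← Matrix.mul_apply, Matrix.diagonal_mul_diagonal]
  · rw [Finset.sum_add_distrib]
    have e1 : ∑ k, Matrix.diagonal a i k *
          (pd1 q (a k * b' k) (a j * b' j)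
            * (Matrix.of fun i j => b' i * X₁ i j + Z₁ i j * a j) k j)
        = a i * (pd1 q (a i * b' i) (a j * b' j) * (b' i * X₁ i j + Z₁ i j * a j)) := by
      have := Matrix.diagonal_mul a (Matrix.of fun k j =>
        pd1 q (a k * b' k) (a j * b' j) * (b' k * X₁ k j + Z₁ k j * a j)) i j
      rw [Matrix.mul_apply] at this
      simpa using this
    have e2 : ∑ k, X₁ i k * Matrix.diagonal (fun i => q.eval (a i * b' i)) k j
        = X₁ i j * q.eval (a j * b' j) := by
      rw [← Matrix.mul_apply, Matrix.mul_diagonal]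
    rw [e1, e2, pd1_mul_X']; ring

end jets

/-! ### Hermite interpolation -/

/-- (iii) Hermite interpolation of a 2-jet on a finite set of nodes -/
theorem exists_hermite (f f1 f2 : ℝ → ℝ) (s : Finset ℝ) :
    ∃ q : ℝ[X], ∀ x ∈ s, q.eval x = f x ∧ q.derivative.eval x = f1 x ∧
      q.derivative.derivative.eval x = f2 x := by
  induction s using Finset.induction_on with
  | empty => exact ⟨0, by simp⟩
  | insert a s ha ih =>
    obtain ⟨q, hq⟩ := ih
    set r : ℝ[X] := ∏ x ∈ s, (X - C x) with hr
    have hr0 : ∀ x ∈ s, r.eval x = 0 := by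
      intro x hx
      rw [hr, eval_prod]
      exact Finset.prod_eq_zero hx (by simp)
    have hra : r.eval a ≠ 0 := by
      rw [hr, eval_prod, Finset.prod_ne_zero_iff]
      intro x hx
      simp only [eval_sub, eval_X, eval_C]
      exact sub_ne_zero.2 fun h => ha (h ▸ hx)
    -- cubes
    set R : ℝ[X] := r ^ 3 with hR
    have hRa : R.eval a ≠ 0 := by rw [hR, eval_pow]; exact pow_ne_zero _ hra
    have hR0 : ∀ x ∈ s, R.eval x = 0 ∧ R.derivative.eval x = 0 ∧
        R.derivative.derivative.eval x = 0 := by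
      intro x hx
      have h0 := hr0 x hx
      refine ⟨?_, ?_, ?_⟩
      · rw [hR, eval_pow, h0]; simp
      · rw [hR, derivative_pow]; simp [h0]
      · rw [hR, derivative_pow, derivative_mul, derivative_mul, derivative_pow]; simp [h0]
    -- `α + β (X - a) + γ (X - a)^2`
    set α : ℝ := (f a - q.eval a) / R.eval a with hα
    set β : ℝ := (f1 a - q.derivative.eval a - R.derivative.eval a * α) / R.eval a with hβ
    set γ : ℝ := (f2 a - q.derivative.derivative.eval a - R.derivative.derivative.eval a * α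
      - 2 * R.derivative.eval a * β) / (2 * R.eval a) with hγ
    set g : ℝ[X] := C α + C β * (X - C a) + C γ * (X - C a) ^ 2 with hg
    have g0 : g.eval a = α := by simp [hg]
    have g1 : g.derivative.eval a = β := by simp [hg, derivative_pow]
    have g2 : g.derivative.derivative.eval a = 2 * γ := by
      simp [hg, derivative_pow]; ring
    refine ⟨q + R * g, ?_⟩
    intro x hx
    have d1 : (q + R * g).derivative = q.derivative + (R.derivative * g + R * g.derivative) := by
      rw [derivative_add, derivative_mul]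
    have d2 : (q + R * g).derivative.derivative = q.derivative.derivative
        + (R.derivative.derivative * g + R.derivative * g.derivative
          + (R.derivative * g.derivative + R * g.derivative.derivative)) := by
      rw [d1, derivative_add, derivative_add, derivative_mul, derivative_mul]
    rw [d2, d1]
    rcases Finset.mem_insert.1 hx with rfl | hxs
    · simp only [eval_add, eval_mul, g0, g1, g2]
      refine ⟨?_, ?_, ?_⟩
      · rw [hα]; field_simp; ring
      · rw [hβ]; field_simp; ring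
      · rw [hγ]; field_simp; ring
    · obtain ⟨h0, h1, h2⟩ := hR0 x hxs
      obtain ⟨k0, k1, k2⟩ := hq x hxs
      simp only [eval_add, eval_mul, h0, h1, h2, k0, k1, k2]
      simp

/-- (iv) matching divided differences at the nodes -/
theorem pd1_eq_dd1 {q : ℝ[X]} {f f1 : ℝ → ℝ} {x y : ℝ} (hx : q.eval x = f x)
    (hy : q.eval y = f y) (hx1 : q.derivative.eval x = f1 x) : pd1 q x y = dd1 f f1 x y := by
  unfold pd1 dd1
  simp only [hx, hy, hx1]

theorem pd2_eq_dd2 {q : ℝ[X]} {f f1 f2 : ℝ → ℝ} {x y z : ℝ} (hx : q.eval x = f x)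
    (hy : q.eval y = f y) (hz : q.eval z = f z) (hx1 : q.derivative.eval x = f1 x)
    (hy1 : q.derivative.eval y = f1 y) (hx2 : q.derivative.derivative.eval x = f2 x) :
    pd2 q x y z = dd2 f f1 f2 x y z := by
  unfold pd2 dd2 dd1
  simp only [hx, hy, hz, hx1, hy1, hx2]

/-- values of `X q` and its derivatives -/
theorem mulX_eval (q : ℝ[X]) (x : ℝ) : (q * X).eval x = x * q.eval x := by
  rw [eval_mul, eval_X]; ring

theorem mulX_deriv (q : ℝ[X]) (x : ℝ) :
    (q * X).derivative.eval x = q.eval x + x * q.derivative.eval x := by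
  simp [derivative_mul]; ring

theorem mulX_deriv2 (q : ℝ[X]) (x : ℝ) :
    (q * X).derivative.derivative.eval x
      = 2 * q.derivative.eval x + x * q.derivative.derivative.eval x := by
  simp [derivative_mul]; ring

/-- `q` interpolates the profile `p` (with two derivatives) on a set of nodes -/
def Interp (F : Profile) (q : ℝ[X]) (s : Set ℝ) : Prop :=
  ∀ x ∈ s, q.eval x = F.p x ∧ q.derivative.eval x = F.p1 x ∧ q.derivative.derivative.eval x = F.p2 x

theorem exists_interp (F : Profile) {s : Set ℝ} (hs : s.Finite) : ∃ q : ℝ[X], Interp F q s := by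
  obtain ⟨q, hq⟩ := exists_hermite F.p F.p1 F.p2 hs.toFinset
  exact ⟨q, fun x hx => hq x (hs.mem_toFinset.2 hx)⟩

theorem Interp.pd1_p {F : Profile} {q : ℝ[X]} {s : Set ℝ} (h : Interp F q s) {x y : ℝ}
    (hx : x ∈ s) (hy : y ∈ s) : pd1 q x y = dd1 F.p F.p1 x y :=
  pd1_eq_dd1 (h x hx).1 (h y hy).1 (h x hx).2.1

theorem Interp.pd1_h {F : Profile} {q : ℝ[X]} {s : Set ℝ} (h : Interp F q s) {x y : ℝ}
    (hx : x ∈ s) (hy : y ∈ s) : pd1 (q * X) x y = dd1 F.h F.h1 x y := by
  refine pd1_eq_dd1 ?_ ?_ ?_
  · rw [mulX_eval, (h x hx).1]; rfl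
  · rw [mulX_eval, (h y hy).1]; rfl
  · rw [mulX_deriv, (h x hx).1, (h x hx).2.1]; rfl

theorem Interp.pd2_h {F : Profile} {q : ℝ[X]} {s : Set ℝ} (h : Interp F q s) {x y z : ℝ}
    (hx : x ∈ s) (hy : y ∈ s) (hz : z ∈ s) : pd2 (q * X) x y z = dd2 F.h F.h1 F.h2 x y z := by
  refine pd2_eq_dd2 ?_ ?_ ?_ ?_ ?_ ?_
  · rw [mulX_eval, (h x hx).1]; rfl
  · rw [mulX_eval, (h y hy).1]; rfl
  · rw [mulX_eval, (h z hz).1]; rfl
  · rw [mulX_deriv, (h x hx).1, (h x hx).2.1]; rfl
  · rw [mulX_deriv, (h y hy).1, (h y hy).2.1]; rfl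
  · rw [mulX_deriv2, (h x hx).2.1, (h x hx).2.2]; rfl

end Vale.Agent.P254.S526
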