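import Vale.Agent.P254.L.Spec
import Vale.Agent.P254.S526.Poly

/-!
P254, block (S2) (helper526): frame forms of `S(A,B) = A p(BA)`, positivity, and the inequality
`(P)` in frames versus in general coordinates.
-/

namespace Vale.Agent.P254.S526

open Matrix Set Filter Topology
open Vale.Agent.P254.L

variable {n : ℕ}

/-! ### congruence of 3-tensors -/

/-- a 3-tensor as a vector -/
def vecT (T : Ten n) : Fin n × (Fin n × Fin n) → ℝ := fun x => T x.1 x.2.1 x.2.2

theorem N3_eq_vec (P₁ P₂ P₃ : Mat n) (T T' : Ten n) :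
    N3 P₁ P₂ P₃ T T'
      = vecT T ⬝ᵥ ((kroneckerMap (· * ·) P₁ (kroneckerMap (· * ·) P₂ P₃)) *ᵥ vecT T') := by
  simp only [N3, dotProduct, mulVec, Fintype.sum_prod_type, vecT, kroneckerMap_apply,
    Finset.mul_sum]
  refine Finset.sum_congr rfl fun a _ => Finset.sum_congr rfl fun b _ =>
    Finset.sum_congr rfl fun c _ => Finset.sum_congr rfl fun a' _ =>
    Finset.sum_congr rfl fun b' _ => Finset.sum_congr rfl fun c' _ => ?_
  ring

theorem vecT_frT (L : Mat n) (T : Ten n) :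
    vecT (frT L T) = (kroneckerMap (· * ·) L (kroneckerMap (· * ·) L L)) *ᵥ vecT T := by
  funext x
  simp only [vecT, frT, mulVec, dotProduct, Fintype.sum_prod_type, kroneckerMap_apply]
  refine Finset.sum_congr rfl fun a _ => Finset.sum_congr rfl fun b _ =>
    Finset.sum_congr rfl fun c _ => ?_
  ring

theorem dot_congr {m : Type*} [Fintype m] (K Q : Matrix m m ℝ) (v v' : m → ℝ) :
    (K *ᵥ v) ⬝ᵥ (Q *ᵥ (K *ᵥ v')) = v ⬝ᵥ ((Kᵀ * Q * K) *ᵥ v') := by
  rw [Matrix.mul_assoc, ← mulVec_mulVec, ← mulVec_mulVec, dotProduct_mulVec v, vecMul_transpose]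

theorem N3_frT (L P₁ P₂ P₃ : Mat n) (T T' : Ten n) :
    N3 P₁ P₂ P₃ (frT L T) (frT L T') = N3 (Lᵀ * P₁ * L) (Lᵀ * P₂ * L) (Lᵀ * P₃ * L) T T' := by
  rw [N3_eq_vec, N3_eq_vec, vecT_frT, vecT_frT, dot_congr]
  simp only [mul_kronecker_mul, kroneckerMap_transpose]

theorem NN_frT (L P : Mat n) (T T' : Ten n) :
    NN P (frT L T) (frT L T') = NN (Lᵀ * P * L) T T' := N3_frT L P P P T T'

theorem frT_frT (L L' : Mat n) (T : Ten n) : frT L (frT L' T) = frT (L * L') T := by
  have h : vecT (frT L (frT L' T)) = vecT (frT (L * L') T) := by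
    rw [vecT_frT, vecT_frT, vecT_frT, mul_kronecker_mul, mul_kronecker_mul, mulVec_mulVec]
  funext i j k
  exact congrFun h (i, (j, k))

theorem frT_one (T : Ten n) : frT (1 : Mat n) T = T := by
  have h : vecT (frT (1 : Mat n) T) = vecT T := by
    rw [vecT_frT, one_kronecker_one, one_kronecker_one, one_mulVec]
  funext i j k
  exact congrFun h (i, (j, k))

/-! ### frames -/

/-- the frame `diag (a^{-1/2}) L` -/
theorem fr_of_diag {A B L : Mat n} {a b' : Vec n} (ha : ∀ i, 0 < a i)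
    (hA : L * A * Lᵀ = Matrix.diagonal a) (hB : B = Lᵀ * Matrix.diagonal b' * L) :
    Fr A B (Matrix.diagonal (fun i => (Real.sqrt (a i))⁻¹) * L) (fun i => a i * b' i) := by
  have hs : ∀ i, Real.sqrt (a i) ≠ 0 := fun i => (Real.sqrt_pos.2 (ha i)).ne'
  have hq : ∀ i, Real.sqrt (a i) * Real.sqrt (a i) = a i := fun i => Real.mul_self_sqrt (ha i).le
  constructor
  · rw [Matrix.transpose_mul, Matrix.diagonal_transpose]
    calc Matrix.diagonal (fun i => (Real.sqrt (a i))⁻¹) * L * A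
          * (Lᵀ * Matrix.diagonal fun i => (Real.sqrt (a i))⁻¹)
        = Matrix.diagonal (fun i => (Real.sqrt (a i))⁻¹) * (L * A * Lᵀ)
          * Matrix.diagonal fun i => (Real.sqrt (a i))⁻¹ := by simp only [Matrix.mul_assoc]
      _ = 1 := by
          rw [hA, Matrix.diagonal_mul_diagonal, Matrix.diagonal_mul_diagonal,
            ← Matrix.diagonal_one]
          congr 1; ext i
          have := hq i
          have h0 := hs i
          field_simp
          nlinarith
  · rw [Matrix.transpose_mul, Matrix.diagonal_transpose, hB]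
    symm
    calc Lᵀ * Matrix.diagonal (fun i => (Real.sqrt (a i))⁻¹)
          * Matrix.diagonal (fun i => a i * b' i)
          * (Matrix.diagonal (fun i => (Real.sqrt (a i))⁻¹) * L)
        = Lᵀ * (Matrix.diagonal (fun i => (Real.sqrt (a i))⁻¹)
          * Matrix.diagonal (fun i => a i * b' i)
          * Matrix.diagonal (fun i => (Real.sqrt (a i))⁻¹)) * L := by
            simp only [Matrix.mul_assoc]
      _ = Lᵀ * Matrix.diagonal b' * L := by
          rw [Matrix.diagonal_mul_diagonal, Matrix.diagonal_mul_diagonal]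
          congr 3; ext i
          have := hq i
          have h0 := hs i
          have h1 : (Real.sqrt (a i))⁻¹ * (a i * b' i) * (Real.sqrt (a i))⁻¹
            = a i * ((Real.sqrt (a i))⁻¹ * (Real.sqrt (a i))⁻¹) * b' i := by ring
          rw [h1]
          nth_rewrite 1 [← this]
          field_simp

/-- (i) -/
theorem Sf_frame {A B L : Mat n} {a b' : Vec n} (hAs : Aᵀ = A) (ha : ∀ i, 0 < a i)
    (hA : L * A * Lᵀ = Matrix.diagonal a) (hB : B = Lᵀ * Matrix.diagonal b' * L) (f : ℝ → ℝ) :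
    L * Sf f A B * Lᵀ = Matrix.diagonal fun i => a i * f (a i * b' i) := by
  have hF := fr_of_diag ha hA hB
  rw [Sf_eq hAs hF f, Matrix.transpose_mul, Matrix.transpose_mul, Matrix.diagonal_transpose, hAs]
  have hq : ∀ i, Real.sqrt (a i) * Real.sqrt (a i) = a i := fun i => Real.mul_self_sqrt (ha i).le
  have hs : ∀ i, Real.sqrt (a i) ≠ 0 := fun i => (Real.sqrt_pos.2 (ha i)).ne'
  calc L * (A * (Lᵀ * Matrix.diagonal fun i => (Real.sqrt (a i))⁻¹)
        * (Matrix.diagonal fun i => f (a i * b' i))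
        * ((Matrix.diagonal fun i => (Real.sqrt (a i))⁻¹) * L * A)) * Lᵀ
      = (L * A * Lᵀ) * ((Matrix.diagonal fun i => (Real.sqrt (a i))⁻¹)
        * (Matrix.diagonal fun i => f (a i * b' i))
        * (Matrix.diagonal fun i => (Real.sqrt (a i))⁻¹)) * (L * A * Lᵀ) := by
          simp only [Matrix.mul_assoc]
    _ = _ := by
        rw [hA]
        simp only [Matrix.diagonal_mul_diagonal]
        congr 1; ext i
        have := hq i
        have h0 := hs i
        have h1 : a i * ((Real.sqrt (a i))⁻¹ * f (a i * b' i) * (Real.sqrt (a i))⁻¹) * a i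
          = (a i * ((Real.sqrt (a i))⁻¹ * (Real.sqrt (a i))⁻¹)) * a i * f (a i * b' i) := by ring
        have h2 : a i * ((Real.sqrt (a i))⁻¹ * (Real.sqrt (a i))⁻¹) = 1 := by
          nth_rewrite 1 [← this]
          field_simp
        rw [h1, h2, one_mul]

theorem Sf_frame_one {A B L : Mat n} {β : Vec n} (hAs : Aᵀ = A) (h : Fr A B L β) (f : ℝ → ℝ) :
    L * Sf f A B * Lᵀ = Matrix.diagonal fun i => f (β i) := by
  have h1 : L * A * Lᵀ = Matrix.diagonal fun _ => (1 : ℝ) := by rw [h.hA, Matrix.diagonal_one]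
  have := Sf_frame (a := fun _ => 1) hAs (fun _ => one_pos) h1 h.hB f
  simpa using this

/-- (ii) lower bound -/
theorem Sf_ge {A B L : Mat n} {β : Vec n} (hAs : Aᵀ = A) (h : Fr A B L β) {f : ℝ → ℝ} {c : ℝ}
    (hc : ∀ i, c ≤ f (β i)) : (Sf f A B - c • A).PosSemidef := by
  have e : Sf f A B - c • A
      = (L * A)ᵀ * (Matrix.diagonal fun i => f (β i) - c) * (L * A) := by
    have h2 : (Matrix.diagonal fun i => f (β i) - c)
        = (Matrix.diagonal fun i => f (β i)) - c • (1 : Mat n) := by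
      rw [Matrix.smul_one_eq_diagonal, Matrix.diagonal_sub]
    rw [h2, Matrix.mul_sub, Matrix.sub_mul, ← Sf_eq hAs h, Matrix.mul_smul, Matrix.smul_mul,
      Matrix.mul_one, h.gram hAs]
  rw [e]
  have h3 : (Matrix.diagonal fun i => f (β i) - c).PosSemidef :=
    posSemidef_diagonal_iff.2 fun i => sub_nonneg.2 (hc i)
  have := h3.conjTranspose_mul_mul_same (L * A)
  rwa [Matrix.conjTranspose_eq_transpose_of_trivial] at this

/-- (ii) upper bound -/
theorem Sf_le {A B L : Mat n} {β : Vec n} (hAs : Aᵀ = A) (h : Fr A B L β) {f : ℝ → ℝ} {c : ℝ}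
    (hc : ∀ i, f (β i) ≤ c) : (c • A - Sf f A B).PosSemidef := by
  have e : c • A - Sf f A B
      = (L * A)ᵀ * (Matrix.diagonal fun i => c - f (β i)) * (L * A) := by
    have h2 : (Matrix.diagonal fun i => c - f (β i))
        = c • (1 : Mat n) - (Matrix.diagonal fun i => f (β i)) := by
      rw [Matrix.smul_one_eq_diagonal, Matrix.diagonal_sub]
    rw [h2, Matrix.mul_sub, Matrix.sub_mul, ← Sf_eq hAs h, Matrix.mul_smul, Matrix.smul_mul,
      Matrix.mul_one, h.gram hAs]
  rw [e]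
  have h3 : (Matrix.diagonal fun i => c - f (β i)).PosSemidef :=
    posSemidef_diagonal_iff.2 fun i => sub_nonneg.2 (hc i)
  have := h3.conjTranspose_mul_mul_same (L * A)
  rwa [Matrix.conjTranspose_eq_transpose_of_trivial] at this

theorem Sf_isSymm {A B L : Mat n} {β : Vec n} (hAs : Aᵀ = A) (h : Fr A B L β) (f : ℝ → ℝ) :
    (Sf f A B)ᵀ = Sf f A B := by
  rw [Sf_eq hAs h f]
  simp only [Matrix.transpose_mul, Matrix.diagonal_transpose, Matrix.transpose_transpose,
    Matrix.mul_assoc]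

/-- (ii) positivity -/
theorem Sf_posDef {A B L : Mat n} {β : Vec n} (hAs : Aᵀ = A) (h : Fr A B L β) {f : ℝ → ℝ}
    (hf : ∀ i, 0 < f (β i)) : (Sf f A B).PosDef := by
  rw [Sf_eq hAs h f]
  have h3 : (Matrix.diagonal fun i => f (β i)).PosDef := posDef_diagonal_iff.2 hf
  have hu : IsUnit (L * A) := by
    have h1 : Lᵀ * (L * A) = 1 := h.mul2
    exact IsUnit.of_mul_eq_one_right _ h1
  have hinj : Function.Injective (L * A).mulVec := by
    rw [Matrix.mulVec_injective_iff_isUnit]; exact hu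
  have := h3.conjTranspose_mul_mul_same hinj
  rwa [Matrix.conjTranspose_eq_transpose_of_trivial] at this

/-- (iii) the normal frame `S = 1`, `A = diag (1/p)`, `B = diag h` -/
theorem exists_normal (F : Profile) {A B : Mat n} (hA : A.PosDef) (hB : B.IsHermitian)
    (hβ : ∀ L β, Fr A B L β → ∀ i, β i ∈ Ioo (0 : ℝ) 1) :
    ∃ (L : Mat n) (β : Vec n), (∀ i, β i ∈ Ioo (0 : ℝ) 1) ∧ IsUnit L ∧
      L * Sf F.p A B * Lᵀ = 1 ∧
      L * A * Lᵀ = Matrix.diagonal (fun i => 1 / F.p (β i)) ∧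
      B = Lᵀ * Matrix.diagonal (fun i => F.h (β i)) * L := by
  obtain ⟨L₁, β, h⟩ := exists_Fr hA hB
  have hAs : Aᵀ = A := by
    have := hA.isHermitian.eq
    rwa [Matrix.conjTranspose_eq_transpose_of_trivial] at this
  have hb := hβ L₁ β h
  have hp : ∀ i, 0 < F.p (β i) := fun i => F.pos _ (hb i)
  have hs : ∀ i, Real.sqrt (F.p (β i)) ≠ 0 := fun i => (Real.sqrt_pos.2 (hp i)).ne'
  have hq : ∀ i, Real.sqrt (F.p (β i)) * Real.sqrt (F.p (β i)) = F.p (β i) := fun i =>
    Real.mul_self_sqrt (hp i).le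
  obtain ⟨D, hD⟩ : ∃ D : Mat n, D = Matrix.diagonal fun i => (Real.sqrt (F.p (β i)))⁻¹ := ⟨_, rfl⟩
  have hDt : Dᵀ = D := by rw [hD, Matrix.diagonal_transpose]
  have hAf : (D * L₁) * A * (D * L₁)ᵀ = Matrix.diagonal (fun i => 1 / F.p (β i)) := by
    rw [Matrix.transpose_mul, hDt]
    calc D * L₁ * A * (L₁ᵀ * D) = D * (L₁ * A * L₁ᵀ) * D := by simp only [Matrix.mul_assoc]
      _ = _ := by
        rw [h.hA, Matrix.mul_one, hD, Matrix.diagonal_mul_diagonal]
        congr 1; ext i
        rw [← mul_inv, hq, one_div]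
  have hBf : B = (D * L₁)ᵀ * Matrix.diagonal (fun i => F.h (β i)) * (D * L₁) := by
    rw [Matrix.transpose_mul, hDt]
    calc B = L₁ᵀ * Matrix.diagonal β * L₁ := h.hB
      _ = L₁ᵀ * (D * Matrix.diagonal (fun i => F.h (β i)) * D) * L₁ := by
        rw [hD, Matrix.diagonal_mul_diagonal, Matrix.diagonal_mul_diagonal]
        congr 3; ext i
        have h1 : (Real.sqrt (F.p (β i)))⁻¹ * F.h (β i) * (Real.sqrt (F.p (β i)))⁻¹
          = ((Real.sqrt (F.p (β i)) * Real.sqrt (F.p (β i))))⁻¹ * F.h (β i) := by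
          rw [mul_inv]; ring
        rw [h1, hq]
        unfold Profile.h
        have := (hp i).ne'
        field_simp
      _ = L₁ᵀ * D * Matrix.diagonal (fun i => F.h (β i)) * (D * L₁) := by
        simp only [Matrix.mul_assoc]
  refine ⟨D * L₁, β, hb, ?_, ?_, hAf, hBf⟩
  · have hDu : IsUnit D := by
      rw [hD, Matrix.isUnit_diagonal]
      rw [Pi.isUnit_iff]
      intro i
      exact IsUnit.mk0 _ (inv_ne_zero (hs i))
    exact hDu.mul h.isUnit
  · have h1 := Sf_frame (a := fun i => 1 / F.p (β i)) (b' := fun i => F.h (β i)) hAs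
      (fun i => one_div_pos.2 (hp i)) hAf hBf F.p
    rw [h1, ← Matrix.diagonal_one]
    congr 1; ext i
    have h2 : 1 / F.p (β i) * F.h (β i) = β i := by
      unfold Profile.h
      have := (hp i).ne'
      field_simp
    rw [h2]
    have := (hp i).ne'
    field_simp

/-! ### the inequality `(P)` -/

theorem trace_cube_congr (L S P : Mat n) :
    ((L * S * Lᵀ * P) ^ 3).trace = ((S * (Lᵀ * P * L)) ^ 3).trace := by
  have e1 : (L * S * Lᵀ * P) ^ 3
      = L * (S * Lᵀ * P * (L * S * Lᵀ * P) * (L * S * Lᵀ * P)) := by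
    simp only [pow_succ, pow_zero, Matrix.one_mul, Matrix.mul_assoc]
  have e2 : (S * (Lᵀ * P * L)) ^ 3
      = (S * Lᵀ * P * (L * S * Lᵀ * P) * (L * S * Lᵀ * P)) * L := by
    simp only [pow_succ, pow_zero, Matrix.one_mul, Matrix.mul_assoc]
  rw [e1, e2, Matrix.trace_mul_comm]

/-- (iv) -/
theorem pIneq_of_all {F : Profile} {A B : Mat n} {T : Ten n} (hA : A.PosDef)
    (h : ∀ P : Mat n, P.PosSemidef → NN P T T ≤ ((Sf F.p A B * P) ^ 3).trace) :
    PIneq F A B T := by
  intro L a b' hL hAL hBL P hP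
  have hAs : Aᵀ = A := by
    have := hA.isHermitian.eq
    rwa [Matrix.conjTranspose_eq_transpose_of_trivial] at this
  have ha : ∀ i, 0 < a i := by
    have hinj : Function.Injective (Lᵀ).mulVec := by
      rw [Matrix.mulVec_injective_iff_isUnit]; exact (Matrix.isUnit_transpose L).2 hL
    have h1 := hA.conjTranspose_mul_mul_same hinj
    rw [Matrix.conjTranspose_eq_transpose_of_trivial, Matrix.transpose_transpose, hAL] at h1
    exact posDef_diagonal_iff.1 h1
  rw [NN_frT, ← Sf_frame hAs ha hAL hBL F.p, trace_cube_congr]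
  refine h _ ?_
  have := hP.conjTranspose_mul_mul_same L
  rwa [Matrix.conjTranspose_eq_transpose_of_trivial] at this

theorem all_of_pIneq {F : Profile} {A B : Mat n} {T : Ten n} (hA : A.PosDef)
    (hB : B.IsHermitian) (h : PIneq F A B T) (P : Mat n) (hP : P.PosSemidef) :
    NN P T T ≤ ((Sf F.p A B * P) ^ 3).trace := by
  obtain ⟨L, β, hF⟩ := exists_Fr hA hB
  have hAs : Aᵀ = A := by
    have := hA.isHermitian.eq
    rwa [Matrix.conjTranspose_eq_transpose_of_trivial] at this
  obtain ⟨R, hR1, hR2⟩ : ∃ R : Mat n, R * L = 1 ∧ L * R = 1 := by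
    obtain ⟨u, hu⟩ := hF.isUnit
    exact ⟨↑u⁻¹, by rw [← hu]; simp, by rw [← hu]; simp⟩
  have hA1 : L * A * Lᵀ = Matrix.diagonal fun _ => (1 : ℝ) := by rw [hF.hA, Matrix.diagonal_one]
  have hP' : (Rᵀ * P * R).PosSemidef := by
    have := hP.conjTranspose_mul_mul_same R
    rwa [Matrix.conjTranspose_eq_transpose_of_trivial] at this
  have h1 := h L (fun _ => 1) β hF.isUnit hA1 hF.hB (Rᵀ * P * R) hP'
  have e : Lᵀ * (Rᵀ * P * R) * L = P := by
    calc Lᵀ * (Rᵀ * P * R) * L = (R * L)ᵀ * P * (R * L) := by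
          rw [Matrix.transpose_mul]; simp only [Matrix.mul_assoc]
      _ = P := by rw [hR1]; simp
  rw [NN_frT, e] at h1
  simp only [one_mul] at h1
  rw [← Sf_frame_one hAs hF F.p, trace_cube_congr, e] at h1
  exact h1

theorem pIneq_iff {F : Profile} {A B : Mat n} {T : Ten n} (hA : A.PosDef)
    (hB : B.IsHermitian) :
    PIneq F A B T ↔ ∀ P : Mat n, P.PosSemidef → NN P T T ≤ ((Sf F.p A B * P) ^ 3).trace :=
  ⟨fun h P hP => all_of_pIneq hA hB h P hP, pIneq_of_all hA⟩

end Vale.Agent.P254.S526
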